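import Crest.Agent.X261.Sh72.Lf
import Crest.Agent.X261.Sh81.Defs
import Crest.Agent.X261.Sk.Defs
import Crest.Agent.X261.Shaf.Defs

/-!
# X261/Sh72/Conv (helper72): from tube data `Sh81.Dat` to `Top.Tube` and `Sk.GredK`
-/

set_option autoImplicit false
set_option linter.unusedSectionVars false

open Set Filter Topology Module Metric
open scoped Pointwise

namespace Crest.Agent.X261.Sh72

open Crest.Agent.R275.Geo Crest.Agent.R275.GC293
open Crest.Agent.R273.UCov_914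
open Crest.Agent.R281.Kp_487 (KP)
open Crest.Agent.X261.Top (Tube)
open Crest.Agent.X261.Ans Crest.Agent.X261.Ans.Brg
open Crest.Agent.X261.Sh97 (Key Out OutStmt)
open Crest.Agent.X261.Sh81 (Dat)

/-- tube data exist off a thin set -/
def TubS : Prop :=
  ∀ (E : Type) [NormedAddCommGroup E] [NormedSpace ℂ E] [FiniteDimensional ℂ E] (M : Type)
    [TopologicalSpace M] [T2Space M] [ConnectedSpace M] (A : HA E M) [Countable A.ι] (k : Key A)
    (Q : Out k), A.Cov (finrank ℂ E) {x | ¬ ∃ T π O, Dat A Q.Y (p := Q.p) T π O ∧ x ∈ T}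

/-- the fibre through a point does not depend on the datum -/
def UniqS : Prop :=
  ∀ (E : Type) [NormedAddCommGroup E] [NormedSpace ℂ E] [FiniteDimensional ℂ E] (M : Type)
    [TopologicalSpace M] [T2Space M] [ConnectedSpace M] (A : HA E M) [Countable A.ι] (k : Key A)
    (Q : Out k) (T T' : Set M) (π π' : M → Fin Q.p → ℂ) (O O' : Set (Fin Q.p → ℂ)),
    Dat A Q.Y T π O → Dat A Q.Y T' π' O' → ∀ y ∈ T, y ∈ T' →
      T ∩ π ⁻¹' {π y} = T' ∩ π' ⁻¹' {π' y}

/-- maximality at general points -/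
def MaxS : Prop :=
  ∀ (E : Type) [NormedAddCommGroup E] [NormedSpace ℂ E] [FiniteDimensional ℂ E] (M : Type)
    [TopologicalSpace M] [T2Space M] [ConnectedSpace M] (A : HA E M) [Countable A.ι] (k : Key A)
    (Q : Out k) (T : Set M) (π : M → Fin Q.p → ℂ) (O : Set (Fin Q.p → ℂ)),
    Dat A Q.Y T π O → ∀ x ∈ T, x ∉ Q.B → ∀ Z : Set M, IsCompact Z → IsPreconnected Z →
      A.An univ Z → x ∈ Z → Z ⊆ T ∩ π ⁻¹' {π x}

/-- the analytic input on the cover -/
def KeyS : Prop :=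
  ∀ (n : ℕ) (X : Type) [TopologicalSpace X] [T2Space X] [CompactSpace X] [ConnectedSpace X]
    (A : Atl n X) [Finite A.ι], GoodA A → Part A → ∀ H : KP A, H.Pos →
    ∀ (G : Type) [Group G] [Infinite G] (D : MonD A G), ConnectedSpace (D.cov G) →
      Nonempty (Key (HA.of (D.atl G)))

section General

variable {E : Type} [NormedAddCommGroup E] [NormedSpace ℂ E] [FiniteDimensional ℂ E] {M : Type}
  [TopologicalSpace M] {A : HA E M} {Y : Set (M × M)} {p : ℕ} {T : Set M} {π : M → Fin p → ℂ}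
  {O : Set (Fin p → ℂ)}

/-- transport of a datum along a biholomorphism preserving `Y` -/
theorem dat_transport (h : Dat A Y T π O) {g f : M → M} (hb : HA.Bih A A univ univ g f)
    (hY : ∀ x y, (x, y) ∈ Y → (g x, g y) ∈ Y) : Dat A Y (f ⁻¹' T) (fun y => π (f y)) O := by
  have hg : Continuous g := continuousOn_univ.1 hb.contOn
  have hf : Continuous f := continuousOn_univ.1 hb.symm.contOn
  have him : ∀ S, g '' S = f ⁻¹' S := fun S => by simpa using hb.image_eq S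
  have hgf : ∀ y, g (f y) = y := fun y => hb.gf y (mem_univ y)
  refine ⟨h.opn.preimage hf, h.opO, ?_, fun y hy => (h.subm _ hy).comp (hb.symm.subm (mem_univ y)),
    fun K h1 h2 => ?_, fun t => ?_, fun y hy z hz h1 => ?_⟩
  · rw [← h.img, ← him, image_image]
    exact image_congr fun x _ => by rw [hb.fg x (mem_univ x)]
  · have h3 := (h.prop K h1 h2).image hg
    rwa [him] at h3
  · have h3 := (h.conn t).image g hg.continuousOn
    rwa [him] at h3
  · have h2 := hY _ _ (h.sub _ hy _ hz h1)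
    rwa [hgf, hgf] at h2

/-- normalisation of a datum at a point -/
theorem dat_norm (h : Dat A Y T π O) {x : M} (hx : x ∈ T) : ∃ (T' : Set M) (π' : M → Cn p),
    IsOpen T' ∧ x ∈ T' ∧ T' ⊆ T ∧ (∀ y ∈ T', A.Subm (HA.self (Cn p)) π' y) ∧ π' x = 0 ∧
      π' '' T' = ball 0 1 ∧ (∀ r < (1 : ℝ), IsCompact {y | y ∈ T' ∧ ‖π' y‖ ≤ r}) ∧
      ∀ y ∈ T', T ∩ π ⁻¹' {π y} = {z | z ∈ T' ∧ π' z = π' y} := by
  let L : Cn p ≃L[ℂ] (Fin p → ℂ) := EuclideanSpace.equiv (Fin p) ℂ
  have h1 : (fun t => π x + L t) ⁻¹' O ∈ 𝓝 (0 : Cn p) :=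
    (h.opO.preimage (by fun_prop)).mem_nhds (by simpa using h.img ▸ mem_image_of_mem π hx)
  obtain ⟨ε, hε, hb⟩ := Metric.mem_nhds_iff.1 h1
  have hε' : (ε : ℂ) ≠ 0 := by exact_mod_cast hε.ne'
  let a : Cn p → Fin p → ℂ := fun t => π x + L ((ε : ℂ) • t)
  let b : (Fin p → ℂ) → Cn p := fun s => (ε : ℂ)⁻¹ • L.symm (s - π x)
  have hab : ∀ s, a (b s) = s := fun s => by
    simp only [a, b, smul_inv_smul₀ hε', L.apply_symm_apply, add_sub_cancel]
  have hba : ∀ t, b (a t) = t := fun t => by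
    simp only [a, b, add_sub_cancel_left, L.symm_apply_apply, inv_smul_smul₀ hε']
  have ha : ∀ t, AnalyticAt ℂ a t := fun t =>
    analyticAt_const.add (AnalyticAt.comp (g := L) (f := fun t => (ε : ℂ) • t)
      ((L : Cn p →L[ℂ] (Fin p → ℂ)).analyticAt _) (analyticAt_id.const_smul (c := (ε : ℂ))))
  have hbb : ∀ s, AnalyticAt ℂ b s := fun s =>
    (AnalyticAt.comp (g := L.symm) (f := fun s => s - π x)
      ((L.symm : (Fin p → ℂ) →L[ℂ] Cn p).analyticAt _)
      (analyticAt_id.sub analyticAt_const)).const_smul (c := (ε : ℂ)⁻¹)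
  have haO : ∀ t ∈ ball (0 : Cn p) 1, a t ∈ O := fun t ht => hb (by
    rw [mem_ball_zero_iff] at ht ⊢
    rw [norm_smul, Complex.norm_real, Real.norm_of_nonneg hε.le]
    exact mul_lt_of_lt_one_right hε ht)
  have hs : ∀ y ∈ T, A.Subm (HA.self (Cn p)) (fun y => b (π y)) y := fun y hy =>
    (HA.subm_of_sec (HA.self_hol_iff.2 (hbb _)) (HA.self_hol_iff.2 (ha _)) (hab _)
      (Eventually.of_forall hba)).comp (h.subm y hy)
  refine ⟨T ∩ (fun y => b (π y)) ⁻¹' ball 0 1, fun y => b (π y),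
    ContinuousOn.isOpen_inter_preimage (fun y hy => (hs y hy).hol.cont.continuousWithinAt) h.opn
      isOpen_ball, ⟨hx, by simp [b]⟩, inter_subset_left, fun y hy => hs y hy.1, by simp [b],
    subset_antisymm ?_ fun t ht => ?_, fun r hr => ?_, fun y hy => ?_⟩
  · rintro _ ⟨y, hy, rfl⟩
    exact hy.2
  · obtain ⟨y, hy, h2⟩ : a t ∈ π '' T := h.img ▸ haO t ht
    have h3 : b (π y) = t := by rw [h2, hba]
    exact ⟨y, ⟨hy, by rwa [mem_preimage, h3]⟩, h3⟩
  · have h2 := h.prop (a '' closedBall 0 r) (by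
      rintro _ ⟨t, ht, rfl⟩
      exact haO t (closedBall_subset_ball hr ht))
      ((isCompact_closedBall 0 r).image (continuous_iff_continuousAt.2 fun t => (ha t).continuousAt))
    convert h2 using 1
    ext y
    refine ⟨fun h3 => ⟨h3.1.1, _, mem_closedBall_zero_iff.2 h3.2, hab _⟩, ?_⟩
    rintro ⟨h3, t, ht, h4⟩
    have h5 : b (π y) = t := by rw [← h4, hba]
    exact ⟨⟨h3, by rw [mem_preimage, h5]; exact closedBall_subset_ball hr ht⟩,
      (congrArg norm h5).le.trans (mem_closedBall_zero_iff.1 ht)⟩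
  · ext z
    refine ⟨fun h2 => ?_, fun h2 => ⟨h2.1.1, ?_⟩⟩
    · have h3 : b (π z) = b (π y) := congrArg b h2.2
      exact ⟨⟨h2.1, by rw [mem_preimage, h3]; exact hy.2⟩, h3⟩
    · have h3 := congrArg a h2.2
      rwa [hab, hab] at h3

/-- the two texts of `Key` -/
theorem key_of_shaf (h : Shaf.Key A) : Nonempty (Key A) := by
  obtain ⟨Z, h1, h2⟩ := h
  refine ⟨⟨Z, fun c => (h1 c).1, fun c K hK => ?_, h2⟩⟩
  have h3 := (h1 c).2.2 K hK
  rwa [prod_univ, univ_prod] at h3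

end General

section Tube

variable {n : ℕ} {M : Type} [TopologicalSpace M] [T2Space M] [ConnectedSpace M] {B : Atl n M}
  [Countable B.ι] {G : Type} [Group G] [Countable G] [MulAction G M]

theorem tube_of (hT : TubS) (hU : UniqS) (hM : MaxS)
    (hG : ∀ (g : G) (x : M), (HA.of B).Hol (HA.of B) (fun y => g • y) x) {k : Key (HA.of B)}
    (Q : Out k) : Nonempty (Tube B G Q.p) := by
  let M0 : Set M := {x | ∃ T π O, Dat (HA.of B) Q.Y (p := Q.p) T π O ∧ x ∈ T}
  have hb : ∀ g : G, HA.Bih (HA.of B) (HA.of B) univ univ (fun y => g • y) (fun y => g⁻¹ • y) :=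
    fun g => HA.bih_univ (hG g) (hG g⁻¹) (fun x => inv_smul_smul g x) fun x => smul_inv_smul g x
  have hsm : ∀ (g : G) (Z : Set M), g • Z = (fun y => g⁻¹ • y) ⁻¹' Z := fun g Z =>
    Set.ext fun _ => mem_smul_set_iff_inv_smul_mem
  have h0 : ∀ x ∈ M0, ∃ T π O, Dat (HA.of B) Q.Y (p := Q.p) T π O ∧ x ∈ T := fun _ hx => hx
  choose! T₀ π₀ O₀ hD hx₀ using h0
  choose! T π h1 h2 h3 h4 h5 h6 h7 h8 using fun x (hx : x ∈ M0) => dat_norm (hD x hx) (hx₀ x hx)
  have hsub : ∀ x ∈ M0, T₀ x ⊆ M0 := fun x hx y hy => ⟨_, _, _, hD x hx, hy⟩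
  have hW : ∀ y ∈ M0, ∀ T' π' O', Dat (HA.of B) Q.Y (p := Q.p) T' π' O' → y ∈ T' →
      T₀ y ∩ π₀ y ⁻¹' {π₀ y y} = T' ∩ π' ⁻¹' {π' y} := fun y hy T' π' O' h hyT =>
    hU _ M _ k Q _ _ _ _ _ _ (hD y hy) h y (hx₀ y hy) hyT
  have htr := fun (g : G) x (hx : x ∈ M0) => dat_transport (hD x hx) (hb g) (Q.inv _ _ (hb g))
  have hgx : ∀ (g : G), ∀ x ∈ M0, g • x ∈ (fun y => g⁻¹ • y) ⁻¹' T₀ x := fun g x hx => by
    simpa using hx₀ x hx
  have hn : Q.p + Q.r = n := Q.hpr.trans (finrank_Cn n)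
  exact ⟨{
    M0 := M0
    opn := isOpen_iff_mem_nhds.2 fun x hx =>
      mem_of_superset ((hD x hx).opn.mem_nhds (hx₀ x hx)) (hsub x hx)
    thin := cov_iff_sthM'.1 (hT _ M _ k Q)
    inv := fun g x hx => ⟨_, _, _, htr g x hx, hgx g x hx⟩
    W := fun y => T₀ y ∩ π₀ y ⁻¹' {π₀ y y}
    W_mem := fun x hx => ⟨hx₀ x hx, rfl⟩
    W_eq := fun x hx y hy => by
      rw [hW y (hsub x hx hy.1) _ _ _ (hD x hx) hy.1, show π₀ x y = π₀ x x from hy.2]
    W_inv := fun g x hx => by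
      rw [hW _ ⟨_, _, _, htr g x hx, hgx g x hx⟩ _ _ _ (htr g x hx) (hgx g x hx), hsm,
        inv_smul_smul]
      rfl
    W_conn := fun x hx => (hD x hx).conn _
    T := T
    π := π
    T_opn := h1
    T_mem := h2
    T_sub := fun x hx => (h3 x hx).trans (hsub x hx)
    π_hol := fun x hx => holV_of fun y hy => (h4 x hx y hy).hol
    π_cont := fun x hx y hy => (h4 x hx y hy).hol.cont.continuousWithinAt
    π_subm := fun x hx => crit_eq_empty (h4 x hx)
    π_self := h5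
    π_img := h6
    π_prop := h7
    π_fib := fun x hx y hy => by
      rw [hW y (hsub x hx (h3 x hx hy)) _ _ _ (hD x hx) (h3 x hx hy), h8 x hx y hy]
    mer := mer_of hn Q.forms h4 fun x hx y hy => by
      filter_upwards [(h1 x hx).mem_nhds hy] with z hz h9
      have h10 : z ∈ T₀ x ∩ π₀ x ⁻¹' {π₀ x y} := h8 x hx y hy ▸ ⟨hz, h9⟩
      exact (hD x hx).sub y (h3 x hx hy) z h10.1 h10.2.symm
    Bad := ⋃ g : G, g • Q.B
    bad_thin := cov_iff_sthM'.1 (HA.cov_iUnion fun g => by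
      rw [hsm]
      simpa using (hb g).cov Q.cov)
    bad_inv := fun g x hx => by
      obtain ⟨g', hg'⟩ := mem_iUnion.1 hx
      exact mem_iUnion.2 ⟨g * g', by rw [mul_smul]; exact smul_mem_smul_set hg'⟩
    max := fun x hx hB Z hK hc hZ hxZ => hM _ M _ k Q _ _ _ (hD x hx) x (hx₀ x hx)
      (fun h => hB (mem_iUnion.2 ⟨1, by rwa [one_smul]⟩)) Z hK hc (an_of_anM hZ) hxZ }⟩

end Tube

theorem not_compact {n : ℕ} {X : Type} [TopologicalSpace X] {A : Atl n X} {G : Type} [Group G]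
    [Infinite G] (D : MonD A G) [Nonempty (D.cov G)] : ¬ CompactSpace (D.cov G) := fun _ => by
  obtain ⟨e⟩ : Nonempty (D.cov G) := inferInstance
  exact infinite_univ ((D.finite_deck isCompact_univ isCompact_univ).subset
    fun g _ => ⟨e, mem_univ _, mem_univ _⟩)

theorem gredK_of (hO : OutStmt) (hT : TubS) (hU : UniqS) (hM : MaxS) (hK : KeyS) : Sk.GredK := by
  intro n X _ _ _ _ A _ hA P H hH G _ _ D hc
  have : Countable G := Cov.A.countable D
  obtain ⟨k⟩ := hK n X A hA P H hH G D hc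
  obtain ⟨Q⟩ := hO _ _ _ k
  exact ⟨Q.p, Q.pos (not_compact D), (Nat.le_add_right _ _).trans (Q.hpr.trans (finrank_Cn n)).le,
    tube_of hT hU hM (hol_deck D) Q⟩

end Crest.Agent.X261.Sh72
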