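import Crest.Agent.X261.Ans.Man3
import Crest.Agent.X261.Frb.Main

/-!
# X261/Sh72/Lf (helper72): the field `mer` of `Top.Tube` from the field `forms` of `EqvK`
-/

set_option autoImplicit false
set_option linter.unusedSectionVars false

open Set Filter Topology Module

namespace Crest.Agent.X261.Sh72

open Crest.Agent.R275.Geo Crest.Agent.R275.Core144
open Crest.Agent.R273.Fock_243 (FI)
open Crest.Agent.X261.Top (wdg dW)
open Crest.Agent.X261.Ans Crest.Agent.X261.Ans.Brg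
open Crest.Agent.X261.Frb.Main (row dW_eq wdg_row_ne)

/-- a function vanishing on the fibre of a submersion has differential killing the kernel -/
theorem fderiv_ker {E F : Type} [NormedAddCommGroup E] [NormedSpace ℂ E] [FiniteDimensional ℂ E]
    [NormedAddCommGroup F] [NormedSpace ℂ F] [FiniteDimensional ℂ F] {π : E → F} {h : E → ℂ} {a : E}
    (hπ : AnalyticAt ℂ π a) (hs : Function.Surjective (fderiv ℂ π a)) {h' : E →L[ℂ] ℂ}
    (hh : HasFDerivAt h h' a) (h0 : ∀ᶠ z in 𝓝 a, π z = π a → h z = 0) {v : E}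
    (hv : fderiv ℂ π a v = 0) : h' v = 0 := by
  have := FiniteDimensional.complete ℂ E
  have h1 := hπ.hasStrictFDerivAt
  have h2 : (fderiv ℂ π a).range = ⊤ := LinearMap.range_eq_top.2 hs
  have h3 := (h1.to_implicitFunction h2).hasFDerivAt
  have h4 : h1.implicitFunction π _ h2 (π a) 0 = a := h1.implicitFunction_apply_image h2
  have h5 : ∀ᶠ w in 𝓝 (0 : (fderiv ℂ π a).ker), π (h1.implicitFunction π _ h2 (π a) w) = π a :=
    (Continuous.prodMk_right (π a)).continuousAt.eventually (h1.map_implicitFunction_eq h2)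
  have h6 : Tendsto (h1.implicitFunction π _ h2 (π a)) (𝓝 0) (𝓝 a) := by
    have h7 := h3.continuousAt
    rwa [ContinuousAt, h4] at h7
  rw [← h4] at hh
  have h8 := (hh.comp _ h3).unique ((hasFDerivAt_const (0 : ℂ) _).congr_of_eventuallyEq
    ((h5.and (h6.eventually h0)).mono fun w hw => hw.2 hw.1))
  exact congrArg (fun L : _ →L[ℂ] ℂ => L ⟨v, hv⟩) h8

variable {n p : ℕ}

theorem wdg_mul (a : Matrix (Fin p) (Fin p) ℂ) (v : Fin p → Fin n → ℂ) :
    wdg (fun k b => ∑ j, a k j * v j b) = a.det • wdg v := by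
  funext S
  simp only [wdg, Pi.smul_apply, smul_eq_mul]
  split_ifs with h
  · rw [← Matrix.det_mul]
    rfl
  · rw [mul_zero]

/-- linear forms killing the kernel of `L` have wedge product proportional to that of `L` -/
theorem wdg_of_ker (L : Cn n →L[ℂ] Cn p) (l : Fin p → Cn n →L[ℂ] ℂ)
    (h : ∀ k v, L v = 0 → l k v = 0) :
    ∃ c : ℂ, wdg (fun k b => l k (EuclideanSpace.single b 1)) = c • wdg (row L) := by
  have h1 : ∀ k, ∃ a : Fin p → ℂ, ∀ v, l k v = ∑ j, a j * L v j := fun k => by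
    have h2 := mem_span_of_iInf_ker_le_ker (K := (l k).toLinearMap)
      (L := fun j : Fin p => ((EuclideanSpace.proj j : Cn p →L[ℂ] ℂ).comp L).toLinearMap)
      fun v hv => h k v (by
        ext j
        exact LinearMap.mem_ker.1 ((Submodule.mem_iInf _).1 hv j))
    obtain ⟨a, ha⟩ := (Submodule.mem_span_range_iff_exists_fun ℂ).1 h2
    refine ⟨a, fun v => ?_⟩
    simpa [LinearMap.sum_apply] using (LinearMap.congr_fun ha v).symm
  choose a ha using h1
  refine ⟨(Matrix.of a).det, ?_⟩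
  rw [← wdg_mul]
  congr 1
  funext k b
  exact ha k _

variable {M : Type} [TopologicalSpace M] {B : Atl n M}

theorem mer_of {r : ℕ} (hn : p + r = n) {Y : Set (M × M)}
    (hf : ∀ (i : B.ι), ∀ x ∈ (B.e i).source, ∃ (W : Set (Cn n)) (f : Fin p → Cn n × Cn n → ℂ),
      IsOpen W ∧ IsPreconnected W ∧ B.e i x ∈ W ∧ W ⊆ (B.e i).target ∧
      (∀ j, AnalyticOnNhd ℂ (f j) (W ×ˢ W)) ∧
      (∀ j, ∀ y ∈ W, ∀ z ∈ W, ((B.e i).symm y, (B.e i).symm z) ∈ Y → f j (y, z) = 0) ∧
      ∃ z ∈ W, Function.Surjective (fderiv ℂ (fun y => fun j => f j (z, y)) z))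
    {M0 : Set M} {T : M → Set M} {π : M → M → Cn p}
    (hs : ∀ x ∈ M0, ∀ y ∈ T x, (HA.of B).Subm (HA.self (Cn p)) (π x) y)
    (hY : ∀ x ∈ M0, ∀ y ∈ T x, ∀ᶠ z in 𝓝 y, π x z = π x y → (y, z) ∈ Y) (x : M) :
    ∃ (i : B.ι) (U : Set M) (τ : M → FI n → ℂ), IsOpen U ∧ x ∈ U ∧
      U ⊆ (B.e i).source ∧ (∀ S, HolAt B i U fun y => τ y S) ∧
      (∀ y S, S.card ≠ p → τ y S = 0) ∧
      (∀ V : Set M, IsOpen V → V.Nonempty → V ⊆ U → ∃ y ∈ V, τ y ≠ 0) ∧
      ∀ x' ∈ M0, ∀ y ∈ U ∩ T x', ∃ c : ℂ, τ y = c • dW B i (π x') y := by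
  obtain ⟨i, hi⟩ := B.cover x
  obtain ⟨W, f, hW, hc, hxW, hWt, hfa, hf0, z₀, hz₀, hsu⟩ := hf i x hi
  let t : Cn n → FI n → ℂ := fun z =>
    wdg fun k b => fderiv ℂ (f k) (z, z) (0, EuclideanSpace.single b 1)
  have hd : ∀ k, ∀ z ∈ W, HasFDerivAt (fun y => f k (z, y))
      ((fderiv ℂ (f k) (z, z)).comp (ContinuousLinearMap.inr ℂ _ _)) z := fun k z hz =>
    (hfa k (z, z) ⟨hz, hz⟩).differentiableAt.hasFDerivAt.comp z (hasFDerivAt_prodMk_right z z)
  have ht : ∀ S, AnalyticOnNhd ℂ (fun z => t z S) W := fun S z hz => by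
    by_cases h : S.card = p
    · simp only [t, wdg, dif_pos h]
      refine Man.analyticAt_det fun k l => ?_
      have h1 : AnalyticAt ℂ (fun y : Cn n => fderiv ℂ (f k) (y, y)) z :=
        AnalyticAt.comp (f := fun y : Cn n => (y, y)) (hfa k (z, z) ⟨hz, hz⟩).fderiv
          (analyticAt_id.prod analyticAt_id)
      exact ((ContinuousLinearMap.apply ℂ ℂ _).analyticAt _).comp h1
    · simp only [t, wdg, dif_neg h]
      exact analyticAt_const
  have ht0 : t z₀ ≠ 0 := by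
    have h1 := (hasFDerivAt_pi.2 fun k => hd k z₀ hz₀).fderiv
    rw [h1] at hsu
    exact wdg_row_ne hn (L := ((EuclideanSpace.equiv (Fin p) ℂ).symm : _ →L[ℂ] Cn p).comp
      (ContinuousLinearMap.pi fun k => (fderiv ℂ (f k) (z₀, z₀)).comp
        (ContinuousLinearMap.inr ℂ (Cn n) (Cn n))))
      ((EuclideanSpace.equiv (Fin p) ℂ).symm.surjective.comp hsu)
  refine ⟨i, (B.e i).source ∩ B.e i ⁻¹' W, fun y => t (B.e i y),
    (B.e i).isOpen_inter_preimage hW, ⟨hi, hxW⟩, inter_subset_left, fun S => ?_,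
    fun y S h => dif_neg h, fun V hV ⟨y, hy⟩ hVU => ?_, fun x' hx' y hy => ?_⟩
  · refine (((ht S).differentiableOn.mono fun z hz => ?_).congr fun z hz => ?_)
    · have h1 := hz.2.2
      rwa [mem_preimage, (B.e i).right_inv hz.1] at h1
    · beta_reduce
      rw [(B.e i).right_inv hz.1]
  · by_contra h
    push Not at h
    obtain ⟨S, hS⟩ := Function.ne_iff.1 ht0
    refine hS ((ht S).eqOn_zero_of_preconnected_of_eventuallyEq_zero hc (hVU hy).2 ?_ hz₀)
    refine (HA.ev_chart' (A := HA.of B) (i := i) (hVU hy).1).2 ?_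
    filter_upwards [hV.mem_nhds hy] with w hw using congrFun (h w hw) S
  · have h1 := hs x' hx' y hy.2
    have hyi : y ∈ (B.e i).source := hy.1.1
    have h2 := (HA.hol_self_iff (A := HA.of B) (i := i) hyi).1 h1.hol
    have h3 := (HA.subm_self_iff h1.hol (i := i) hyi).1 h1
    rw [dW_eq h2.differentiableAt]
    refine wdg_of_ker _ (fun k => (fderiv ℂ (f k) (B.e i y, B.e i y)).comp
      (ContinuousLinearMap.inr ℂ _ _)) fun k v hv => fderiv_ker h2 h3 (hd k _ hy.1.2) ?_ hv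
    filter_upwards [(HA.ev_chart (A := HA.of B) (i := i) hyi).1 (hY x' hx' y hy.2),
      hW.mem_nhds hy.1.2] with z h4 h5 h6
    refine hf0 k _ hy.1.2 z h5 ?_
    rw [of_e, (B.e i).left_inv hyi] at h6
    rw [(B.e i).left_inv hyi]
    exact h4 h6

end Crest.Agent.X261.Sh72
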