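import Crest.Agent.X261.Sh72.Conv
import Crest.Agent.X261.Sh81.Uniq
import Crest.Agent.X261.Sh97.Main

/-!
# X261/Sh72/Main (helper72): `GredK` from `KeyS`
-/

set_option autoImplicit false

namespace Crest.Agent.X261.Sh72

theorem tubS : TubS := fun _ _ _ _ _ _ _ _ _ _ _ Q => Sh81.tubS Q

theorem uniqS : UniqS := fun _ _ _ _ _ _ _ _ _ _ _ Q _ _ _ _ _ _ D D' _ hy hy' =>
  Sh81.uniqS Q D D' hy hy'

theorem maxS : MaxS := fun _ _ _ _ _ _ _ _ _ _ _ Q _ _ _ D _ hx hB _ hK hc hZ hxZ =>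
  Sh81.maxS Q D hx hB hK hc hZ hxZ

theorem gredK_of_key (hK : KeyS) : Sk.GredK := gredK_of Sh97.outStmt tubS uniqS maxS hK

end Crest.Agent.X261.Sh72
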